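import Vale.Agent.P174.Cor

/-!
# P174: a permanence theorem for Howie's conjecture

Main results:
* if every finitely generated subgroup of `G` without nontrivial homomorphism to `ℤ/p` satisfies
  the mod `p` version of Howie's conjecture, then so does `G`;
* if every finitely generated subgroup of `G` with finite abelianization satisfies Howie's
  conjecture, then so does `G`;
* extensions of a group satisfying Howie's conjecture by a locally indicable group satisfy it.
-/

universe u

open Vale.Agent.P174 in
theorem Vale.Agent.Results.P174.FiniteAbelianization.result :
    -- (A) the mod `p` permanence theorem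
    (∀ (p : ℕ) [Fact p.Prime] (G : Type u) [Group G],
      (∀ H : Subgroup G, H.FG → (∀ f : H →* Multiplicative (ZMod p), f = 1) → HowieMod p H) →
      HowieMod p G) ∧
    -- (B) the rational permanence theorem
    (∀ (G : Type u) [Group G],
      (∀ H : Subgroup G, H.FG → Finite (Abelianization H) → Howie H) → Howie G) ∧
    -- (C) extensions by locally indicable groups
    (∀ (G : Type u) [Group G] (N : Subgroup G) [N.Normal],
      Howie N → LocallyIndicable (G ⧸ N) → Howie G) ∧
    -- (D) an unconditional class: abelian-by-(locally indicable) groups
    (∀ (G : Type u) [Group G] (N : Subgroup G) [N.Normal],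
      (∀ a ∈ N, ∀ b ∈ N, a * b = b * a) → LocallyIndicable (G ⧸ N) → Howie G) := by
  refine ⟨fun p _ G _ h => howieMod_of_subgroups p G h, fun G _ h => howie_of_subgroups G h,
    fun G _ N _ hN hLI => howie_of_extension G N hN hLI, fun G _ N _ hN hLI => ?_⟩
  refine howie_of_extension G N (howie_of_comm ?_) hLI
  rintro ⟨a, ha⟩ ⟨b, hb⟩
  exact Subtype.ext (hN a ha b hb)
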